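import Vale.Agent.P218VL.Eqn
import Vale.Agent.P218GS.VF

/-! # The equation of the real family -/

open Set Filter Topology Metric
open scoped Matrix

set_option linter.unusedSectionVars false

namespace Vale.Agent.P218VL

open Vale.Agent.P218VA hiding Geo
open Vale.Agent.P218HB Vale.Agent.P218ST Vale.Agent.P218XI
open Vale.Agent.P218GA (E3 cx Model pol xiCyl xiCone)
open Vale.Agent.P218GE (RealFam Geo seqPar)
open Vale.Agent.P218SQ (Pt Adm ofReal)
open Vale.Agent.P218ND (reV)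
open Vale.Agent.P218LB (lvl)
open Vale.Agent.P218EN (WA)
open Vale.Agent.P272.K.LIN

lemma cx_reV {V : C3} (h : ∀ a, (V a).im = 0) : cx (reV V) = V := by
  ext a
  exact Complex.ext rfl (by simpa using (h a).symm)

lemma eq_ofReal {a : ℂ} (h : a.im = 0) : a = (a.re : ℝ) := Complex.ext rfl (by simpa using h)

lemma im_U0 {a0 s W : ℝ} {α : ℂ} {J : Fin 6 → WA} {p : ℝ × ℝ} (h : CylSol a0 s W α J)
    (hp : p.1 ∈ Icc s W) (hα : α.im = 0) (hJ : ((J 0).ev p.1 p.2).im = 0) :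
    (U0 α J p).im = 0 := by
  have h1 : (prof α p.1).im = 0 := by
    rw [prof, Complex.sqrt_of_nonneg ⟨(h.rg.pt hp).re_pos.le, by simp [hα]⟩, Complex.ofReal_im]
  simp [U0, h1, hJ]

lemma im_mulVec {R : Matrix (Fin 3) (Fin 3) ℂ} (hR : ∀ a b, (R a b).im = 0) (v : E3) (a : Fin 3) :
    ((R *ᵥ cx v) a).im = 0 := by
  simp [Matrix.mulVec, dot3, hR]

variable {S : Set E3} {w : E3 → ℝ} {δ C : ℝ} {ι κ M : Type} [Fintype ι] [Fintype κ]
  [TopologicalSpace M] [ChartedSpace E2 M] [T2Space M] [RSm E2 M] [CompactSpace M]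
  [MeasurableSpace M] [BorelSpace M] {m : Model S w δ C ι κ M} {τ : Type} [Fintype τ]
  (H : Hub m τ) {W : ι → ℝ} {x : (ι → ℝ) × (τ → ℝ)}

lemma X_cyl (hz : H.c.Ok W (ofReal x)) (i : ι) {p : ℝ × ℝ} (h1 : H.s < p.1) (h2 : p.1 < W i) :
    H.X W (ofReal x) (Yp m.φ (.inl i) p) = H.R W (ofReal x) i *ᵥ
      cx (xiCyl p.1 p.2 (U0 (H.α W (ofReal x) i) (H.J W (ofReal x) i) p).re) := by
  rw [H.cyl W _ hz i p h1 h2, cx_xiCyl_Z, ← eq_ofReal (im_U0 (H.cylSol W _ hz i) ⟨h1.le, h2.le⟩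
    (H.α_real W x hz i) (H.J_real W x hz i 0 _ ⟨h1.le, h2.le⟩ _))]

lemma X_cone (hz : H.c.Ok W (ofReal x)) (j : κ) {p : ℝ × ℝ} (h1 : H.s < p.1) :
    H.X W (ofReal x) (Yp m.φ (.inr j) p)
      = cx (xiCone (m.L j) p.1 p.2 (H.t W (ofReal x) j p).re) := by
  rw [H.cone W _ hz j p h1, cx_xiCone, ← eq_ofReal (H.t_real W x hz j p h1)]

lemma below_cut {i : ι} {p : ℝ × ℝ} (hp : m.w0 < p.1) (hy : Yp m.φ (.inl i) p ∈ Hub.Reg m W) :
    p.1 < W i := lt_of_not_ge fun h => hy.2 i p h rfl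

/-- the surfaces with real parameters are real near the points of `Reg m W` -/
lemma ev_real (hz : H.c.Ok W (ofReal x)) {y : M} (hy : y ∈ Hub.Reg m W) :
    ∀ᶠ y' in 𝓝 y, cx (reV (H.X W (ofReal x) y')) = H.X W (ofReal x) y' := by
  have h0 := w0_lt H
  rcases core_or_end hy.1 (r := H.s + 2) (by linarith) with h | ⟨j, p, hp, rfl⟩
  · filter_upwards [((isEnds_model m).isOpen_coreO (r := H.s + 3) (by linarith)).mem_nhds
      (coreK_subset_coreO (by linarith) h)] with y' hy'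
    exact cx_reV (H.X_real W x hz y' (coreO_subset_coreK hy'))
  refine (par_pol j (by linarith)).ev
    (P := fun y' => cx (reV (H.X W (ofReal x) y')) = H.X W (ofReal x) y') ?_
  cases j with
  | inl i =>
    filter_upwards [ev_fst (show H.s < p.1 by linarith) (below_cut (by linarith) hy)] with q hq
    exact cx_reV fun a => (X_cyl H hz i hq.1 hq.2).symm ▸ im_mulVec (H.R_real W x hz i) _ a
  | inr j =>
    filter_upwards [ev_fst (show H.s < p.1 by linarith) (lt_add_one _)] with q hq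
    exact cx_reV fun a => (X_cone H hz j hq.1).symm ▸ Complex.ofReal_im _

lemma elm_out (hz : H.c.Ok W (ofReal x)) {y : M} (hy : y ∈ Hub.Reg m W) (h : y ∉ coreK m.φ H.sd)
    (V : C3) : ELM (fun z => cx (m.F z)) (H.X W (ofReal x)) y V = 0 := by
  have h0 := w0_lt H
  rcases core_or_end hy.1 (r := H.s + 3) (by linarith) with h' | ⟨j, p, hp, rfl⟩
  · exact H.out W _ hz y h' h V
  cases j with
  | inl i => exact elm_cyl H hz i (by linarith) (below_cut (by linarith) hy) V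
  | inr j =>
    refine elm_cone H hz j (by linarith) ?_ V
    rw [eq_ofReal (H.t_real W x hz j p (by linarith))]
    exact one_add_sq_ne _

lemma Ex_subset {R : RealFam m (seqPar ((ι → ℝ) × (τ → ℝ)))} (hW : R.W = fun q => lvl q.1 q.2)
    (q : ℕ × (ι → ℝ) × (τ → ℝ)) : R.Ex q ⊆ Hub.Reg m fun _ => lvl q.1 q.2 := fun _ hy =>
  ⟨hy.1, fun i p hp => hy.2 i p (by
    rw [hW]
    linarith [P218LB.lvl_pos q.1 q.2])⟩

/-- **The equation of the real family.** -/
theorem eqn {R : RealFam m (seqPar ((ι → ℝ) × (τ → ℝ)))} (hX : R.X = H.Xr)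
    (hW : R.W = fun q => lvl q.1 q.2) :
    ∀ᶠ q : ℕ × (ι → ℝ) × (τ → ℝ) in atTop ×ˢ 𝓝 0, ∀ y ∈ R.Ex q,
      (y ∈ coreK m.φ H.sd → ELM (fun z => cx (m.F z)) (fun z => cx (R.X q z)) y (cx (m.nu y))
        = (H.eL (H.lamR q.1 q.2) (m.F y) : ℝ)) ∧
      (y ∉ coreK m.φ H.sd → ∀ V, ELM (fun z => cx (m.F z)) (fun z => cx (R.X q z)) y V = 0) := by
  filter_upwards [H.c.ev_ok] with q hq y hy
  have h1 := Ex_subset hW q hy
  have h2 : (fun z => cx (R.X q z)) =ᶠ[𝓝 y] H.X (fun _ => lvl q.1 q.2) (ofReal q.2) := by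
    rw [hX]
    exact ev_real H hq h1
  refine ⟨fun h => ?_, fun h V => by rw [ELM_congr h2, elm_out H hq h1 h]⟩
  rw [ELM_congr h2, H.deep _ _ hq y h, Hub.eL_apply]
  push_cast
  exact Finset.sum_congr rfl fun k _ => by rw [eq_ofReal (H.lam_real _ _ hq k)]; rfl

end Vale.Agent.P218VL
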