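import Vale.Agent.P218VL.Vel

/-! # The velocities have polynomial growth -/

open Set Filter Topology Metric MeasureTheory
open scoped RealInnerProductSpace Matrix

set_option linter.unusedSectionVars false

namespace Vale.Agent.P218VL

open Vale.Agent.P218VA hiding Geo
open Vale.Agent.P218HB Vale.Agent.P218ST Vale.Agent.P218XI
open Vale.Agent.P218GA (E3 cx Model pol xiCyl norm_xiCyl_sq norm_e3 norm_eth)
open Vale.Agent.P218GE (RealFam Geo seqPar)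
open Vale.Agent.P218SQ (Pt Adm ofReal)
open Vale.Agent.P218ND (reV LM)
open Vale.Agent.P272.K.LIN

lemma norm_cx_le (v : E3) : ‖cx v‖ ≤ ‖v‖ :=
  (pi_norm_le_iff_of_nonneg (norm_nonneg _)).2 fun i =>
    (Complex.norm_real (v i)).trans_le (PiLp.norm_apply_le v i)

lemma norm_dot_le' (a b : C3) : ‖a ⬝ᵥ b‖ ≤ 3 * (‖a‖ * ‖b‖) := by
  have h : ∀ i, ‖a i * b i‖ ≤ ‖a‖ * ‖b‖ := fun i => (norm_mul_le _ _).trans
    (mul_le_mul (norm_le_pi_norm a i) (norm_le_pi_norm b i) (norm_nonneg _) (norm_nonneg _))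
  rw [dot3]
  linarith [norm_add₃_le (a := a 0 * b 0) (b := a 1 * b 1) (c := a 2 * b 2), h 0, h 1, h 2]

lemma norm_Xt_le (F : Frame) {θ : ℝ} (hγ : ‖F.γ θ‖ ≤ 1) (hn : ‖F.n θ‖ ≤ 1) (w t : ℝ) :
    ‖F.Xt w θ t‖ ≤ 8 * √w := by
  have p0 : 0 < 1 + t ^ 2 := by positivity
  have k : ∀ {a c : ℝ}, |a| ≤ c * (1 + t ^ 2) → ‖(a : ℂ) / (1 + (t : ℂ) ^ 2)‖ ≤ c := fun h => by
    rw [← Complex.ofReal_pow, ← Complex.ofReal_one, ← Complex.ofReal_add, ← Complex.ofReal_div,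
      Complex.norm_real, Real.norm_eq_abs, abs_div, abs_of_pos p0, div_le_iff₀ p0]
    exact h
  have h1 : ‖co t‖ ≤ 1 := by
    have := k (a := 1 - t ^ 2) (c := 1) (abs_le.2 ⟨by nlinarith, by nlinarith⟩)
    push_cast at this
    exact this
  have h2 : ‖si t‖ ≤ 1 := by
    have := k (a := 2 * t) (c := 1)
      (abs_le.2 ⟨by nlinarith [sq_nonneg (t + 1)], by nlinarith [sq_nonneg (t - 1)]⟩)
    push_cast at this
    exact this
  have h3 : ‖d1 t 1‖ ≤ 2 := by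
    have := k (a := 2 * 1) (c := 2) (abs_le.2 ⟨by nlinarith, by nlinarith⟩)
    rw [Complex.ofReal_mul] at this
    exact this
  have h4 : ‖F.v θ t‖ ≤ 2 := by
    refine (norm_sub_le _ _).trans ?_
    rw [norm_smul, norm_smul]
    nlinarith [norm_nonneg (co t), norm_nonneg (si t), norm_nonneg (F.n θ), norm_nonneg (F.γ θ)]
  have e : F.Xt w θ t = (2 * rt w * d1 t 1) • F.v θ t := by simp [Frame.Xt, Frame.R_mulVec]
  rw [e, norm_smul, norm_mul, norm_mul, rt, Complex.norm_real, Real.norm_of_nonneg w.sqrt_nonneg,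
    Complex.norm_ofNat]
  calc _ ≤ 2 * √w * 2 * 2 := by gcongr
    _ = _ := by ring

lemma norm_kap_le {w : ℝ} (hw : 1 ≤ w) : ‖kap w‖ ≤ 1 := by
  rw [kap, Complex.norm_real, Real.norm_of_nonneg (by positivity)]
  exact inv_le_one_of_one_le₀ (Real.one_le_sqrt.2 (by linarith))

lemma hasDerivAt_line {ι τ G : Type} [Fintype ι] [Fintype τ] [NormedAddCommGroup G]
    [NormedSpace ℂ G] {f : Pt ι τ → G} {L : Pt ι τ →L[ℂ] G} (hf : HasFDerivAt f L 0) (b : Pt ι τ) :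
    HasDerivAt (fun s : ℝ => f (s • b)) (L b) 0 :=
  HasFDerivAt.comp_hasDerivAt (0 : ℝ) (l' := L.restrictScalars ℝ)
    (by rw [zero_smul]; exact hf.restrictScalars ℝ)
    (by simpa using (hasDerivAt_id (0 : ℝ)).smul_const b)

variable {S : Set E3} {w : E3 → ℝ} {δ C : ℝ} {ι κ M : Type} [Fintype ι] [Fintype κ]
  [TopologicalSpace M] [ChartedSpace E2 M] [T2Space M] [RSm E2 M] [CompactSpace M]
  [MeasurableSpace M] [BorelSpace M] {m : Model S w δ C ι κ M} {τ : Type} [Fintype τ]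
  (H : Hub m τ) {R : RealFam m (seqPar ((ι → ℝ) × (τ → ℝ)))} (G : Geo R)

lemma abs_v_le (hX : R.X = H.Xr) {j : ι ⊕ κ} {p : ℝ × ℝ} (hp : m.w0 < p.1)
    {gb : Pt ι τ → ℝ × ℝ → C3} (h : Loc H.c p (fun W z q => H.X W z (Yp m.φ j q)) gb)
    (b : (ι → ℝ) × (τ → ℝ)) {D : C3}
    (hD : HasDerivAt (fun s : ℝ => gb (s • ofReal b) p) D 0) :
    |G.v b (m.F (Yp m.φ j p))| ≤ ‖reV‖ * ‖D‖ := by
  obtain ⟨U, hU, c1, -, h1⟩ := h.exists_hj
  have hr := m.pol_mem_reg j hp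
  rw [v_eq H G hX (Y := Yp m.φ j) h1.val (mem_of_mem_nhds hU) hr b, abs_neg,
    (hasDerivAt_line (h1.val.hasFDerivAt (mem_of_mem_nhds hU)) _).unique hD]
  refine (abs_real_inner_le_norm _ _).trans ?_
  rw [Yp, m.norm_nu hr, one_mul]
  exact reV.le_opNorm D

lemma grow_cyl (hX : R.X = H.Xr) (b : (ι → ℝ) × (τ → ℝ)) : ∃ K, 0 ≤ K ∧ ∀ i (p : ℝ × ℝ),
    H.s < p.1 → |G.v b (m.F (Yp m.φ (.inl i) p))| ≤ K * p.1 ^ (H.B + 1) := by
  obtain ⟨L, l0, hL⟩ := H.R_hb.norm_fderiv_le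
  obtain ⟨A, a0, hA⟩ := H.R_hb.bdb'
  refine ⟨‖reV‖ * (3 * (L * ‖b‖ * 2) + 3 * (A * (|H.C0| * ‖b‖ * 8))), by positivity,
    fun i p hp => ?_⟩
  obtain ⟨c', ub, hc, hf, h0⟩ := H.u_hf i (p.1 + 1)
  have hU : strip H.s (p.1 + 1) ∈ 𝓝 p := ev_fst hp (lt_add_one _)
  obtain ⟨e0, b0⟩ := h0 p (mem_of_mem_nhds hU)
  have p1 : 1 ≤ p.1 := by linarith [s_ge H]
  have p0 : 0 < p.1 := by linarith
  have e1 : kap p.1 * ub 0 p = (((√(8 * p.1))⁻¹ * m.U i p : ℝ) : ℂ) := by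
    rw [e0, kap, Complex.ofReal_mul]
  have hl : 1 + (kap p.1 * ub 0 p) ^ 2 ≠ 0 := by rw [e1]; exact one_add_sq_ne _
  have h2 := ((((loc_of_hf hf hc hU).kap p0).frame cylF p0 hl).rot (R := fun W z => H.R W z i)
    (Rb := fun z => H.Rb z i) (H.R_hb.pre (T := fun a => (i, a)) fun _ _ => mem_univ _)).congr
    (g₁ := fun W z q => H.X W z (Yp m.φ (.inl i) q)) hU (by
      filter_upwards [H.c.ev_le, H.c.ev_w1 (p.1 + 1)] with c1 a b W z hz q hq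
      exact H.cyl W z (a.ok hz) i q hq.1 (hq.2.trans_le (b.trans (hz.1 i).1)))
  have d1 := cylF.hasDerivAt_Xt (w := p.1) (θ := p.2) ((hasDerivAt_line
    ((HJ.val ⟨hf.cd, hf.cdb, hf.hb⟩).hasFDerivAt (mem_of_mem_nhds hU)) (ofReal b)).const_mul
      (kap p.1)) (by rwa [zero_smul])
  have d2 := hasDerivAt_pi.2 fun a => hasDerivAt_dot (hasDerivAt_pi.2 fun a' =>
    hasDerivAt_line (H.R_hb.hasFDerivAt (mem_univ (i, a, a'))) (ofReal b)) d1
  refine (abs_v_le H G hX ((w0_lt H).trans hp) h2 b d2).trans ?_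
  rw [mul_assoc]
  refine mul_le_mul_of_nonneg_left ((pi_norm_le_iff_of_nonneg (by positivity)).2 fun a => ?_)
    (norm_nonneg _)
  have s1 : √p.1 ≤ p.1 := Real.sqrt_le_iff.2 ⟨p0.le, by nlinarith⟩
  have s2 : 1 ≤ p.1 ^ H.B := one_le_pow₀ p1
  have n1 : ‖cylF.X p.1 p.2 (kap p.1 * ub 0 p)‖ ≤ 2 * (p.1 ^ H.B * p.1) := by
    rw [e0, ← Frame.Z, ← cx_xiCyl_Z]
    refine (norm_cx_le _).trans (abs_le_of_sq_le_sq' ?_ (by positivity)).2
    rw [norm_xiCyl_sq p0.le]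
    nlinarith [mul_le_mul_of_nonneg_right s2 p0.le]
  have n2 : ‖cylF.Xt p.1 p.2 (kap p.1 * ub 0 p)‖ ≤ 8 * p.1 := by
    rw [e1]
    exact (norm_Xt_le cylF (cylF_γ _ ▸ cx_e3 ▸ (norm_cx_le _).trans norm_e3.le)
      (cylF_n _ ▸ cx_eth _ ▸ (norm_cx_le _).trans (norm_eth _).le) _ _).trans (by linarith)
  have n3 : ‖kap p.1 * fderiv ℂ (fun z => ub z p) 0 (ofReal b)‖ ≤ |H.C0| * p.1 ^ H.B * ‖b‖ := by
    rw [norm_mul, ← norm_ofReal b]
    exact (mul_le_of_le_one_left (norm_nonneg _) (norm_kap_le p1)).trans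
      (ContinuousLinearMap.le_of_opNorm_le _ (b0.trans (by gcongr; exact le_abs_self _)) _)
  have n4 : ‖fun a' => fderiv ℂ (fun z => H.Rb z i a a') 0 (ofReal b)‖ ≤ L * ‖b‖ :=
    (pi_norm_le_iff_of_nonneg (by positivity)).2 fun a' => norm_ofReal b ▸
      ContinuousLinearMap.le_of_opNorm_le _ (hL (i, a, a') (mem_univ _)) _
  have n5 : ‖fun a' => H.Rb 0 i a a'‖ ≤ A := (pi_norm_le_iff_of_nonneg a0).2 fun a' =>
    hA 0 (mem_ball_self H.c.r_pos) (i, a, a') (mem_univ _)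
  simp only [zero_smul]
  refine (norm_add_le_of_le (norm_dot_le' _ _) (norm_dot_le' _ _)).trans ?_
  rw [norm_smul]
  calc _ ≤ 3 * (L * ‖b‖ * (2 * (p.1 ^ H.B * p.1)))
        + 3 * (A * (|H.C0| * p.1 ^ H.B * ‖b‖ * (8 * p.1))) := by gcongr
    _ = _ := by ring

lemma grow_cone (hX : R.X = H.Xr) (b : (ι → ℝ) × (τ → ℝ)) : ∃ K, 0 ≤ K ∧ ∀ j (p : ℝ × ℝ),
    H.s < p.1 → |G.v b (m.F (Yp m.φ (.inr j) p))| ≤ K * p.1 := by
  have hv : ∀ j, HB H.c {p : ℝ × ℝ | H.s < p.1} (fun W z => H.t W z j) fun z => H.tb z j := fun j =>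
    (H.t_hn j).hb.clm ((ContinuousLinearMap.fst ℂ ℂ _).comp (ContinuousLinearMap.fst ℂ _ _))
  choose L l0 hL using fun j => (hv j).norm_fderiv_le
  have L0 : 0 ≤ ∑ j, L j := Finset.sum_nonneg fun j _ => l0 j
  refine ⟨‖reV‖ * ((∑ j, L j) * ‖b‖ * 8), by positivity, fun j p hp => ?_⟩
  have p1 : 1 ≤ p.1 := by linarith [s_ge H]
  have d1 := (coneF (m.L j)).hasDerivAt_Xt (w := p.1) (θ := p.2)
    (hasDerivAt_line ((hv j).hasFDerivAt hp) (ofReal b))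
    (by rw [zero_smul, H.t_zero j p hp]; exact one_add_sq_ne _)
  refine (abs_v_le H G hX ((w0_lt H).trans hp) (loc_cone H j hp).1 b d1).trans ?_
  rw [zero_smul, H.t_zero j p hp, norm_smul]
  have s1 : √p.1 ≤ p.1 := Real.sqrt_le_iff.2 ⟨by linarith, by nlinarith⟩
  have n2 := (norm_Xt_le (coneF (m.L j)) ((norm_cx_le _).trans ((m.L j).γ_unit p.2).le)
    ((norm_cx_le _).trans ((m.L j).n_unit p.2).le) p.1 (m.t j p)).trans
    (mul_le_mul_of_nonneg_left s1 (by norm_num))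
  have n3 : ‖fderiv ℂ (fun z => H.tb z j p) 0 (ofReal b)‖ ≤ (∑ j, L j) * ‖b‖ :=
    norm_ofReal b ▸ ContinuousLinearMap.le_of_opNorm_le _ ((hL j p hp).trans
      (Finset.single_le_sum (fun j _ => l0 j) (Finset.mem_univ j))) _
  calc _ ≤ ‖reV‖ * ((∑ j, L j) * ‖b‖ * (8 * p.1)) := by gcongr
    _ = _ := by ring

/-- **The velocities are square integrable.** -/
theorem memLp_v (hX : R.X = H.Xr) (b : (ι → ℝ) × (τ → ℝ)) :
    MemLp (fun x => G.v b (m.F x)) 2 m.mu0 := by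
  have hc : ContinuousOn (fun x => G.v b (m.F x)) m.reg := fun x hx =>
    (vel_eq H G hX b hx).1.continuousAt.continuousWithinAt
  obtain ⟨K0, h0⟩ := (isCompact_coreK (φ := m.φ) (r := H.s)).exists_bound_of_continuousOn
    (hc.mono fun _ hx => coreK_reg hx)
  obtain ⟨K1, k1, h1⟩ := grow_cyl H G hX b
  obtain ⟨K2, k2, h2⟩ := grow_cone H G hX b
  refine P218ND.memLp_of_growth m hc (K := |K0| + K1 + K2) (q := 2 * (H.B + 1)) fun x hx => ?_
  have a0 := abs_nonneg K0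
  have a1 : 1 ≤ (1 + ‖m.F x‖) ^ (2 * (H.B + 1)) := one_le_pow₀ (by linarith [norm_nonneg (m.F x)])
  rcases core_or_end hx (w0_lt H).le with h | ⟨j, p, hp, rfl⟩
  · refine ((h0 x h).trans (le_abs_self _)).trans ?_
    nlinarith
  have p1 : 1 ≤ p.1 := by linarith [s_ge H]
  have a2 : p.1 ^ (H.B + 1) ≤ (1 + ‖m.F (Yp m.φ j p)‖) ^ (2 * (H.B + 1)) := by
    rw [pow_mul]
    refine pow_le_pow_left₀ (by linarith) ?_ _
    have := m.norm_F_pol j ((w0_lt H).trans hp)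
    rw [Yp]
    nlinarith [norm_nonneg (m.F ((m.φ j).symm (pol p)))]
  cases j with
  | inl i => exact (h1 i p hp).trans (mul_le_mul (by linarith) a2 (by positivity) (by positivity))
  | inr j =>
    exact (h2 j p hp).trans (mul_le_mul (by linarith)
      ((le_self_pow₀ p1 (Nat.succ_ne_zero _)).trans a2) (by positivity) (by positivity))

end Vale.Agent.P218VL
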