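import Vale.Agent.P218ND.Brg4
import Vale.Agent.P218GE.DJI

/-! # The linearised equation in a parametrisation of the model -/

open Set Filter Topology Complex
open scoped RealInnerProductSpace ContDiff Matrix

set_option linter.unusedSectionVars false

namespace Vale.Agent.P218VL

open Vale.Agent.P218VA Vale.Agent.P218CO Vale.Agent.P218ND
open Vale.Agent.P218GA (E3 cx crs grm Model cx_dot gramF_cx)
open Vale.Agent.P272.K.LIN

/-- a parametrisation of the plane with non-zero Jacobian has a local inverse -/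
lemma exists_inv {T : ℝ × ℝ → E2} {y : ℝ × ℝ} (hT : ContDiffAt ℝ 2 T y)
    (hj : jac (1, 0) (0, 1) T y ≠ 0) :
    ∃ σ : E2 → ℝ × ℝ, ContDiffAt ℝ 2 σ (T y) ∧ σ (T y) = y ∧ (∀ᶠ v in 𝓝 (T y), T (σ v) = v) ∧
      ∀ᶠ z in 𝓝 y, σ (T z) = z := by
  have h1 : ContDiffAt ℝ 2 (fun v => T (toE2.symm v)) (toE2 y) :=
    ContDiffAt.comp (g := T) _ (by simpa using hT) toE2.symm.contDiff.contDiffAt
  have h2 : ∀ v, pd (fun v => T (toE2.symm v)) v (toE2 y) = pd T (toE2.symm v) y := fun v => by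
    unfold pd
    rw [fderiv_fun_comp (toE2 y) (by simpa using hT.differentiableAt two_ne_zero)
      toE2.symm.differentiableAt, ContinuousLinearEquiv.fderiv]
    simp
  have h3 : toE2.symm u1 = (1, 0) := by simp [toE2_symm_apply, u1]
  have h4 : toE2.symm u2 = (0, 1) := by simp [toE2_symm_apply, u2]
  have h5 : (fderiv ℝ (fun v => T (toE2.symm v)) (toE2 y)).det ≠ 0 := by
    rw [det_eq_jac]
    simpa only [jac, h2, h3, h4] using hj
  have h6 : IsUnit (fderiv ℝ (fun v => T (toE2.symm v)) (toE2 y)) :=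
    ⟨(ContinuousLinearMap.toContinuousLinearEquivOfDetNeZero _ h5).toUnit, by
      ext v; rfl⟩
  obtain ⟨Φ, k1, k2, k3, k4⟩ := P218GE.exists_local_inv_cd h1 two_ne_zero h6
  simp only [ContinuousLinearEquiv.symm_apply_apply] at k1 k2 k3
  refine ⟨fun v => toE2.symm (Φ v), toE2.symm.contDiff.contDiffAt.comp _ k1, by simp [k2], k3, ?_⟩
  filter_upwards [toE2.continuous.continuousAt.eventually k4] with z hz
  rw [ContinuousLinearEquiv.symm_apply_apply] at hz
  rw [hz, ContinuousLinearEquiv.symm_apply_apply]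

/-- a regular parametrisation of a surface near `y` -/
structure Par {M : Type} [TopologicalSpace M] [ChartedSpace E2 M]
    (e : OpenPartialHomeomorph M E2) (T : ℝ × ℝ → E2) (y : ℝ × ℝ) : Prop where
  mem : e ∈ atlas E2 M
  cd : ContDiffAt ℝ 2 T y
  jac : jac (1, 0) (0, 1) T y ≠ 0
  tgt : T y ∈ e.target

variable {S : Set E3} {w : E3 → ℝ} {δ C : ℝ} {ι κ M : Type} [TopologicalSpace M]
  [ChartedSpace E2 M] {e : OpenPartialHomeomorph M E2} {T : ℝ × ℝ → E2} {y : ℝ × ℝ}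

namespace Par

lemma cont (h : Par e T y) : ContinuousAt (fun z => e.symm (T z)) y :=
  ContinuousAt.comp (g := e.symm) (e.symm.continuousAt h.tgt) h.cd.continuousAt

lemma cd_comp {G : Type*} [NormedAddCommGroup G] [NormedSpace ℝ G] {f : M → G} (h : Par e T y)
    (hf : CkAt 2 f (e.symm (T y))) : ContDiffAt ℝ 2 (fun z => f (e.symm (T z))) y :=
  ContDiffAt.comp (g := cX e f) y (hf.at_target h.mem h.tgt) h.cd

/-- a property of the points of the parametrisation holds near the base point -/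
lemma ev (h : Par e T y) {P : M → Prop} (hP : ∀ᶠ z in 𝓝 y, P (e.symm (T z))) :
    ∀ᶠ x in 𝓝 (e.symm (T y)), P x := by
  obtain ⟨σ, h1, h2, h3, -⟩ := exists_inv h.cd h.jac
  have h4 : Tendsto e (𝓝 (e.symm (T y))) (𝓝 (T y)) := by
    have := (e.continuousAt (e.map_target h.tgt)).tendsto
    rwa [e.right_inv h.tgt] at this
  have h5 : Tendsto σ (𝓝 (T y)) (𝓝 y) := by
    have := h1.continuousAt.tendsto
    rwa [h2] at this
  filter_upwards [h4.eventually h3, (h5.comp h4).eventually hP,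
    e.open_source.mem_nhds (e.map_target h.tgt)] with x a b c
  simp only [Function.comp_apply] at b
  rwa [a, e.left_inv c] at b

lemma ckAt [RSm E2 M] {G : Type*} [NormedAddCommGroup G] [NormedSpace ℝ G] {f : M → G}
    (h : Par e T y) {g : ℝ × ℝ → G} (hg : ContDiffAt ℝ 2 g y)
    (he : ∀ᶠ z in 𝓝 y, f (e.symm (T z)) = g z) : CkAt 2 f (e.symm (T y)) := by
  obtain ⟨σ, h1, h2, h3, -⟩ := exists_inv h.cd h.jac
  refine ckAt_of_chart two_le_inf h.mem (e.map_target h.tgt) ?_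
  rw [e.right_inv h.tgt]
  have h5 : Tendsto σ (𝓝 (T y)) (𝓝 y) := by
    have := h1.continuousAt.tendsto
    rwa [h2] at this
  refine (ContDiffAt.comp (g := g) _ (by rwa [h2]) h1).congr_of_eventuallyEq ?_
  filter_upwards [h3, h5.eventually he] with v a b
  rw [a] at b
  exact b

variable (m : Model S w δ C ι κ M) [Finite ι] [Finite κ] [T2Space M] [RSm E2 M]
  [CompactSpace M] [MeasurableSpace M] [BorelSpace M]

lemma cd_F (h : Par e T y) (hy : e.symm (T y) ∈ m.reg) :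
    ContDiffAt ℝ 2 (fun z => m.F (e.symm (T z))) y := h.cd_comp (m.rimm.ck _ hy)

lemma slit (h : Par e T y) (hy : e.symm (T y) ∈ m.reg) :
    gramF (1, 0) (0, 1) (fun z => cx (m.F (e.symm (T z)))) y ∈ slitPlane :=
  (gramF_comp_slit (X := cX e fun x => cx (m.F x))
    (((m.rimm.imm hy).ck.at_target h.mem h.tgt).differentiableAt two_ne_zero)
    (h.cd.differentiableAt two_ne_zero) h.jac).2 ((m.rimm.imm hy).slit_target h.mem h.tgt)

lemma grm_ne (h : Par e T y) (hy : e.symm (T y) ∈ m.reg) :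
    grm (pd (fun z => m.F (e.symm (T z))) (1, 0) y) (pd (fun z => m.F (e.symm (T z))) (0, 1) y)
      ≠ 0 := by
  have h1 := slitPlane_ne_zero (h.slit m hy)
  rw [gramF_cx ((h.cd_F m hy).differentiableAt two_ne_zero)] at h1
  exact_mod_cast h1

lemma lag_ne (h : Par e T y) (hy : e.symm (T y) ∈ m.reg) :
    LagF (1, 0) (0, 1) (fun z => cx (m.F (e.symm (T z)))) y ≠ 0 :=
  mul_ne_zero (wt_ne _) (ar_ne' (h.slit m hy))

/-- the Euler-Lagrange density in the parametrisation -/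
lemma elm (h : Par e T y) (hy : e.symm (T y) ∈ m.reg) {X : M → C3} {g : ℝ × ℝ → C3}
    (hg : ContDiffAt ℝ 2 g y) (he : ∀ᶠ z in 𝓝 y, X (e.symm (T z)) = g z) (V : C3) :
    ELM (fun x => cx (m.F x)) X (e.symm (T y)) V
      * LagF (1, 0) (0, 1) (fun z => cx (m.F (e.symm (T z)))) y = ELj (cj (1, 0) (0, 1) g y) V := by
  rw [ELM_param h.mem h.tgt (m.rimm.imm hy) (h.ckAt hg he) h.cd h.jac, ELF_congr he, ELF_eq]

lemma elm_zero (h : Par e T y) (hy : e.symm (T y) ∈ m.reg) {X : M → C3} {g : ℝ × ℝ → C3}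
    (hg : ContDiffAt ℝ 2 g y) (he : ∀ᶠ z in 𝓝 y, X (e.symm (T z)) = g z)
    (h0 : PPF (1, 0) (0, 1) g y = 0) (V : C3) :
    ELM (fun x => cx (m.F x)) X (e.symm (T y)) V = 0 := by
  have h1 := h.elm m hy hg he V
  have h2 : ELj (cj (1, 0) (0, 1) g y) V = 0 := by
    rw [PPF_eq, PPj] at h0
    rw [ELj, EL, h0]; simp
  exact (mul_eq_zero.1 (h1.trans h2)).resolve_right (h.lag_ne m hy)

/-- **The linearised equation.** -/
theorem lin (h : Par e T y) (hy : e.symm (T y) ∈ m.reg) {V : ℝ × ℝ → C3}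
    (hV : ContDiffAt ℝ 2 V y) {v : M → ℝ}
    (hv : ∀ᶠ z in 𝓝 y, v (e.symm (T z)) = -⟪m.nu (e.symm (T z)), reV (V z)⟫)
    {j : ℂ → J2 C3} (hj : HasDerivAt j (cj (1, 0) (0, 1) V y) 0)
    (hj0 : j 0 = cj (1, 0) (0, 1) (fun z => cx (m.F (e.symm (T z)))) y) {μ : ℂ}
    (hE : HasDerivAt (fun s => ELj (j s) (cx (m.nu (e.symm (T y)))))
      (μ * LagF (1, 0) (0, 1) (fun z => cx (m.F (e.symm (T z)))) y) 0) :
    CkAt 2 v (e.symm (T y)) ∧ LM m v (e.symm (T y)) = μ.re := by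
  obtain ⟨σ, -, -, -, hl⟩ := exists_inv h.cd h.jac
  have hν : ContDiffAt ℝ 2 (fun z => cx (m.nu (e.symm (T z)))) y :=
    cx.contDiff.contDiffAt.comp y (h.cd_comp ((m.ckAt_nu hy).of_le two_le_inf))
  have hu0 : ContDiffAt ℝ 2 (fun z => cx (m.nu (e.symm (T z))) ⬝ᵥ V z) y := by
    have a := contDiffAt_pi.1 hν
    have b := contDiffAt_pi.1 hV
    simp only [dot3]
    exact (((a 0).mul (b 0)).add ((a 1).mul (b 1))).add ((a 2).mul (b 2))
  set u : M → ℂ := fun x => cx (m.nu x) ⬝ᵥ V (σ (e x)) with hu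
  have huV : ∀ᶠ z in 𝓝 y, u (e.symm (T z)) = cx (m.nu (e.symm (T z))) ⬝ᵥ V z := by
    filter_upwards [hl, h.cd.continuousAt.eventually (e.open_target.mem_nhds h.tgt)] with z a b
    rw [hu]
    simp only [e.right_inv b, a]
  have hu2 : CkAt 2 u (e.symm (T y)) := h.ckAt hu0 huV
  have k := hasDerivAt_ELj_param m (Y := fun z => e.symm (T z)) hy h.cont (h.cd_F m hy) hu2 hV huV
    (h.grm_ne m hy) hj hj0 (hasDerivAt_const (0 : ℂ) (cx (m.nu (e.symm (T y)))))
  have k1 := k.unique hE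
  rw [cx_dot, real_inner_self_eq_norm_sq, m.norm_nu hy] at k1
  have k2 : LMc m u (e.symm (T y)) = -μ := by
    refine mul_left_cancel₀ (h.lag_ne m hy) ?_
    push_cast at k1
    linear_combination -k1
  have k3 : v =ᶠ[𝓝 (e.symm (T y))] fun x => -1 * (u x).re := h.ev (P := fun x => v x = -1 * (u x).re) (by
    filter_upwards [hv, huV] with z a b
    rw [a, b, re_dot, neg_one_mul])
  refine ⟨(ckAt_cmul (-1) (ckAt_re hu2)).congr k3, ?_⟩
  rw [LM_congr m k3, LM_cmul m hy _ (ckAt_re hu2), ← LMc_re, k2]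
  simp

end Par

end Vale.Agent.P218VL
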