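import Vale.Agent.P218VL.Brg
import Vale.Agent.P218ST.Hub
import Vale.Agent.P218HB.Basic

/-! # The Euler-Lagrange equation of the surfaces of the hub at all regular points -/

open Set Filter Topology Complex
open scoped RealInnerProductSpace ContDiff Matrix

set_option linter.unusedSectionVars false

namespace Vale.Agent.P218VL

open Vale.Agent.P218VA Vale.Agent.P218CO Vale.Agent.P218HB Vale.Agent.P218ST Vale.Agent.P218XI
open Vale.Agent.P218GA (E3 cx Model pol)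
open Vale.Agent.P218SQ (Pt Adm ofReal)
open Vale.Agent.P218EN (WA ef ep sg om)
open Vale.Agent.P272.K.LIN

section cyl
variable {a0 s W : ℝ} {α : ℂ} {J : Fin 6 → WA} {p : ℝ × ℝ}

lemma norm_eta (h : CylSol a0 s W α J) (hp : p.1 ∈ Icc s W) : ‖(J 0).ev p.1 p.2‖ ≤ ep a0 := by
  have h1 := h.rg.pt hp
  have h2 := h1.om_add_le
  have h3 := h1.mu_pos
  have h4 := h1.om_pos
  have h5 : sg a0 α p.1 ≤ ep a0 :=
    (mul_le_of_le_one_left (by positivity) h1.dl_le).trans h2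
  simpa using (h.cls 0).ev_le hp h.rg.ep_pos.le h5 (by linarith) p.2

lemma lam_ne (h : CylSol a0 s W α J) (hp : p.1 ∈ Icc s W) :
    1 + ef 0 p.1 * U0 α J p ^ 2 ≠ 0 := by
  have h1 := h.rg.pt hp
  have h2 := h.rg.ep_small
  have h3 := norm_eta h hp
  have h4 : ‖ef α p.1‖ ≤ 1 / 1000 := by linarith [h1.ef_le_om, h1.om_add_le, h1.mu_pos]
  have h5 : ‖1 + (J 0).ev p.1 p.2‖ ≤ 2 := (norm_add_le _ _).trans (by rw [norm_one]; linarith)
  rw [lam_U0]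
  intro h0
  have h6 : ‖ef α p.1 * (1 + (J 0).ev p.1 p.2) ^ 2‖ = 1 := by
    rw [eq_neg_of_add_eq_zero_right h0, norm_neg, norm_one]
  rw [norm_mul, norm_pow] at h6
  nlinarith [pow_le_pow_left₀ (norm_nonneg _) h5 2, norm_nonneg (ef α p.1),
    sq_nonneg ‖1 + (J 0).ev p.1 p.2‖]

lemma s_pos (h : CylSol a0 s W α J) : 0 < s := lt_of_lt_of_le (by norm_num) (h.rg.big.trans h.rg.le0)

lemma jet2 (h : CylSol a0 s W α J) :
    Jet2 (Icc s W) (U0 α J) (U1 α J) (U2 α J) (U11 α J) (U12 α J) (U22 α J) :=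
  jet2_U (s_pos h) (fun _ hw => (h.rg.pt hw).re_pos) h.sol.jet

lemma cd_U0 (h : CylSol a0 s W α J) (h1 : s < p.1) (h2 : p.1 < W) : ContDiffAt ℝ 2 (U0 α J) p :=
  P218EF.contDiffAt_jet2 (jet2 h) (by rw [interior_Icc]; exact ⟨h1, h2⟩)

variable {R : Matrix (Fin 3) (Fin 3) ℂ}

lemma rot_Z (hR : Rᵀ * R = 1) (w θ : ℝ) (U : ℂ) : (cylF.rot R hR).Z w θ U = R *ᵥ cylF.Z w θ U :=
  Frame.rot_X ..

lemma cd_cyl (h : CylSol a0 s W α J) (h1 : s < p.1) (h2 : p.1 < W) (hR : Rᵀ * R = 1) :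
    ContDiffAt ℝ 2 (fun q : ℝ × ℝ => R *ᵥ cylF.Z q.1 q.2 (U0 α J q)) p := by
  simp only [← rot_Z hR]
  exact Frame.contDiffAt_Z _ two_le_inf (cd_U0 h h1 h2) ((s_pos h).trans h1)
    (lam_ne h ⟨h1.le, h2.le⟩)

/-- the surface of a solution on a cylindrical end solves the shrinker equation -/
theorem ppf_cyl (h : CylSol a0 s W α J) (h1 : s < p.1) (h2 : p.1 < W) (hR : Rᵀ * R = 1) :
    PPF (1, 0) (0, 1) (fun q : ℝ × ℝ => R *ᵥ cylF.Z q.1 q.2 (U0 α J q)) p = 0 := by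
  have hp : p.1 ∈ Icc s W := ⟨h1.le, h2.le⟩
  obtain ⟨e1, e2, e3, e4, e5⟩ := P218EF.pd_jet2 (jet2 h) (p := p)
    (by rw [interior_Icc]; exact ⟨h1, h2⟩)
  simp only [← rot_Z hR]
  rw [(isCyl_cylF.rot hR).PPF_Z (cd_U0 h h1 h2) ((s_pos h).trans h1) (lam_ne h hp), e1, e2, e3, e4,
    e5, pE_U (s_pos h) (fun _ hw => (h.rg.pt hw).re_pos) J hp,
    P218EN.wEq_iff.1 h.sol.eq _ hp, P218EN.WA.ev_zero]
  simp

end cyl

variable {S : Set E3} {w : E3 → ℝ} {δ C : ℝ} {ι κ M : Type} [Fintype ι] [Fintype κ]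
  [TopologicalSpace M] [ChartedSpace E2 M] [T2Space M] [RSm E2 M] [CompactSpace M]
  [MeasurableSpace M] [BorelSpace M] {m : Model S w δ C ι κ M}

/-- a regular point lies in the core or on an end above the given level -/
lemma core_or_end {x : M} (hx : x ∈ m.reg) {r : ℝ} (hr : m.w0 ≤ r) :
    x ∈ coreK m.φ r ∨ ∃ j, ∃ p : ℝ × ℝ, r < p.1 ∧ x = Yp m.φ j p := by
  by_cases h : x ∈ coreK m.φ r
  · exact .inl h
  simp only [coreK, mem_ofPred_eq, not_forall, not_le] at h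
  obtain ⟨j, hj, h1⟩ := h
  have h0 : m.φ j x ≠ 0 := fun h0 => hx j (by rw [← h0, (m.φ j).left_inv hj])
  obtain ⟨θ, -, hθ⟩ := exists_pol h0
  rw [← Real.log_lt_iff_lt_exp (norm_pos_iff.2 h0)] at h1
  exact .inr ⟨j, (-Real.log ‖m.φ j x‖, θ), by linarith, by rw [Yp, hθ, (m.φ j).left_inv hj]⟩

lemma coreK_reg {x : M} {r : ℝ} (hx : x ∈ coreK m.φ r) : x ∈ m.reg := fun j h => by
  have h1 := hx j (h ▸ (m.φ j).map_target (m.zero_mem j))
  rw [h, (m.φ j).right_inv (m.zero_mem j), norm_zero] at h1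
  exact absurd h1 (not_le.2 (Real.exp_pos _))

lemma norm_ge {x : M} (hx : x ∈ m.reg) {r : ℝ} (hr : m.w0 ≤ r) (h : x ∉ coreK m.φ r) :
    4 * r ≤ ‖m.F x‖ ^ 2 := by
  obtain ⟨j, p, h1, rfl⟩ := (core_or_end hx hr).resolve_left h
  rw [Yp, m.norm_F_pol j (hr.trans_lt h1)]
  linarith

lemma par_pol (j : ι ⊕ κ) {p : ℝ × ℝ} (hp : m.w0 < p.1) : Par (m.φ j) pol p :=
  ⟨m.mem j, contDiff_pol.contDiffAt, jac_pol_ne p, m.pol_mem j hp⟩

variable {τ : Type} [Fintype τ] (H : Hub m τ)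

lemma w0_lt : m.w0 < H.s := H.lt.trans_le H.le

lemma ev_fst {a b : ℝ} {p : ℝ × ℝ} (h1 : a < p.1) (h2 : p.1 < b) :
    ∀ᶠ q : ℝ × ℝ in 𝓝 p, a < q.1 ∧ q.1 < b :=
  (continuous_fst.continuousAt.eventually (lt_mem_nhds h1)).and
    (continuous_fst.continuousAt.eventually (gt_mem_nhds h2))

variable {W : ι → ℝ} {z : Pt ι τ}

lemma elm_cyl (hz : H.c.Ok W z) (i : ι) {p : ℝ × ℝ} (h1 : H.s < p.1) (h2 : p.1 < W i) (V : C3) :
    ELM (fun y => cx (m.F y)) (H.X W z) (Yp m.φ (.inl i) p) V = 0 :=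
  (par_pol (.inl i) ((w0_lt H).trans h1)).elm_zero m (m.pol_mem_reg _ ((w0_lt H).trans h1))
    (cd_cyl (H.cylSol W z hz i) h1 h2 (H.orth W z hz i))
    ((ev_fst h1 h2).mono fun q hq => H.cyl W z hz i q hq.1 hq.2)
    (ppf_cyl (H.cylSol W z hz i) h1 h2 (H.orth W z hz i)) V

lemma elm_cone (hz : H.c.Ok W z) (j : κ) {p : ℝ × ℝ} (h1 : H.s < p.1)
    (hl : 1 + H.t W z j p ^ 2 ≠ 0) (V : C3) :
    ELM (fun y => cx (m.F y)) (H.X W z) (Yp m.φ (.inr j) p) V = 0 :=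
  (par_pol (.inr j) ((w0_lt H).trans h1)).elm_zero m (m.pol_mem_reg _ ((w0_lt H).trans h1))
    ((coneF (m.L j)).contDiffAt_X two_le_inf contDiffAt_fst contDiffAt_snd
      ((H.t_hn j).cd W z hz p h1) (by linarith [w0_lt H, m.one_le]) hl)
    ((ev_fst h1 (lt_add_one _)).mono fun q hq => H.cone W z hz j q hq.1)
    (H.cone_eq W z hz j p h1) V

lemma e_zero {x : M} (hx : x ∈ m.reg) (h : x ∉ coreK m.φ H.sd) (k : τ ⊕ ι) : H.e k (m.F x) = 0 :=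
  H.e_supp k _ (norm_ge hx H.lt.le h)

end Vale.Agent.P218VL
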