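import Vale.Agent.P218HB.Lin
import Vale.Agent.P218EF.Fun

/-! # Germs of holomorphic families of functions of two variables -/

open Set Filter Topology Metric

set_option linter.unusedSectionVars false

namespace Vale.Agent.P218VL

open Vale.Agent.P218HB Vale.Agent.P218CO
open Vale.Agent.P218VA (pd pd_comm contDiffAt_pd2 continuousAt_pd)
open Vale.Agent.P218SQ (Pt Adm ofReal)
open Vale.Agent.P218EF (cop contDiff_cop)

section lim
variable {F : Type} [NormedAddCommGroup F] [NormedSpace ℝ F] {U : Set (ℝ × ℝ)}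

lemma fderiv_eq_cop (f : ℝ × ℝ → F) (y : ℝ × ℝ) :
    fderiv ℝ f y = cop (pd f (1, 0) y) (pd f (0, 1) y) := by
  ext <;> simp [P218EF.cop_apply, pd]

lemma norm_cop_sub (a b a' b' : F) : ‖cop a b - cop a' b'‖ ≤ ‖a - a'‖ + ‖b - b'‖ := by
  refine ContinuousLinearMap.opNorm_le_bound _ (by positivity) fun v => ?_
  have e : (cop a b - cop a' b') v = v.1 • (a - a') + v.2 • (b - b') := by
    simp only [ContinuousLinearMap.sub_apply, P218EF.cop_apply]; module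
  rw [e, add_mul]
  refine norm_add_le_of_le ?_ ?_ <;> rw [norm_smul, mul_comm]
  · exact mul_le_mul_of_nonneg_left (norm_fst_le v) (norm_nonneg _)
  · exact mul_le_mul_of_nonneg_left (norm_snd_le v) (norm_nonneg _)

/-- uniform limits of one-jets -/
lemma lim1 (hU : IsOpen U) {f : ℕ → ℝ × ℝ → F} {a b c : ℝ × ℝ → F}
    (hf : ∀ n, ∀ y ∈ U, ContDiffAt ℝ 1 (f n) y)
    (h : ∀ ε : ℝ, 0 < ε → ∀ᶠ n in atTop, ∀ y ∈ U, ‖f n y - a y‖ ≤ ε ∧
      ‖pd (f n) (1, 0) y - b y‖ ≤ ε ∧ ‖pd (f n) (0, 1) y - c y‖ ≤ ε) :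
    (∀ y ∈ U, HasFDerivAt a (cop (b y) (c y)) y) ∧ ContinuousOn (fun y => cop (b y) (c y)) U := by
  have h1 : TendstoUniformlyOn (fun n y => fderiv ℝ (f n) y) (fun y => cop (b y) (c y)) atTop U :=
    Metric.tendstoUniformlyOn_iff.2 fun ε hε => (h (ε / 3) (by positivity)).mono fun n hn y hy => by
      rw [dist_comm, dist_eq_norm, fderiv_eq_cop]
      linarith [norm_cop_sub (pd (f n) (1, 0) y) (pd (f n) (0, 1) y) (b y) (c y), hn y hy]
  refine ⟨fun y hy => hasFDerivAt_of_tendstoUniformlyOn hU h1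
    (fun n x hx => ((hf n x hx).differentiableAt one_ne_zero).hasFDerivAt) (fun x hx => ?_) hy,
    h1.continuousOn (Frequently.of_forall fun n x hx =>
      ((hf n x hx).continuousAt_fderiv one_ne_zero).continuousWithinAt)⟩
  refine Metric.tendsto_nhds.2 fun ε hε => (h (ε / 2) (by positivity)).mono fun n hn => ?_
  rw [dist_eq_norm]
  linarith [(hn x hx).1]

lemma cd1 (hU : IsOpen U) {a : ℝ × ℝ → F} {L : ℝ × ℝ → ℝ × ℝ →L[ℝ] F}
    (h : (∀ y ∈ U, HasFDerivAt a (L y) y) ∧ ContinuousOn L U) {y : ℝ × ℝ} (hy : y ∈ U) :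
    ContDiffAt ℝ 1 a y :=
  contDiffAt_one_iff.2 ⟨L, U, hU.mem_nhds hy, h.2, h.1⟩

/-- uniform limits of two-jets -/
lemma lim2 (hU : IsOpen U) {f : ℕ → ℝ × ℝ → F} {L : ℝ × ℝ → J2 F}
    (hf : ∀ n, ∀ y ∈ U, ContDiffAt ℝ 2 (f n) y)
    (h : ∀ ε : ℝ, 0 < ε → ∀ᶠ n in atTop, ∀ y ∈ U, ‖cj (1, 0) (0, 1) (f n) y - L y‖ ≤ ε)
    {y : ℝ × ℝ} (hy : y ∈ U) : ContDiffAt ℝ 2 (fun y => (L y).1.1) y ∧
      cj (1, 0) (0, 1) (fun y => (L y).1.1) y = L y := by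
  have k : ∀ {j : J2 F} {ε : ℝ}, ‖j‖ ≤ ε → (‖j.1.1‖ ≤ ε ∧ ‖j.1.2.1‖ ≤ ε ∧ ‖j.1.2.2‖ ≤ ε) ∧
      ‖j.2.1‖ ≤ ε ∧ ‖j.2.2.1‖ ≤ ε ∧ ‖j.2.2.2‖ ≤ ε := fun hj => by
    simpa only [norm_prod_le_iff] using hj
  have h0 := lim1 hU (a := fun y => (L y).1.1) (b := fun y => (L y).1.2.1)
    (c := fun y => (L y).1.2.2) (fun n y hy => (hf n y hy).of_le (by norm_num))
    fun ε hε => (h ε hε).mono fun n hn y hy => (k (hn y hy)).1
  have h1 := lim1 hU (f := fun n => pd (f n) (1, 0)) (a := fun y => (L y).1.2.1)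
    (b := fun y => (L y).2.1) (c := fun y => (L y).2.2.1)
    (fun n y hy => contDiffAt_pd2 (hf n y hy) _) fun ε hε => (h ε hε).mono fun n hn y hy =>
      ⟨(k (hn y hy)).1.2.1, (k (hn y hy)).2.1, (k (hn y hy)).2.2.1⟩
  have h2 := lim1 hU (f := fun n => pd (f n) (0, 1)) (a := fun y => (L y).1.2.2)
    (b := fun y => (L y).2.2.1) (c := fun y => (L y).2.2.2)
    (fun n y hy => contDiffAt_pd2 (hf n y hy) _) fun ε hε => (h ε hε).mono fun n hn y hy =>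
      ⟨(k (hn y hy)).1.2.2, by rw [pd_comm (hf n y hy)]; exact (k (hn y hy)).2.2.1,
        (k (hn y hy)).2.2.2⟩
  have e1 : pd (fun y => (L y).1.1) (1, 0) =ᶠ[𝓝 y] fun y => (L y).1.2.1 := by
    filter_upwards [hU.mem_nhds hy] with x hx
    simp [pd, (h0.1 x hx).fderiv, P218EF.cop_apply]
  have e2 : pd (fun y => (L y).1.1) (0, 1) =ᶠ[𝓝 y] fun y => (L y).1.2.2 := by
    filter_upwards [hU.mem_nhds hy] with x hx
    simp [pd, (h0.1 x hx).fderiv, P218EF.cop_apply]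
  refine ⟨(contDiffAt_succ_iff_hasFDerivAt (n := 1)).2 ⟨_, ⟨U, hU.mem_nhds hy, h0.1⟩,
    contDiff_cop.contDiffAt.comp y ((cd1 hU h1 hy).prodMk (cd1 hU h2 hy))⟩, ?_⟩
  rw [cj, P218VA.pd_congr e1, P218VA.pd_congr e1, P218VA.pd_congr e2, e1.self_of_nhds,
    e2.self_of_nhds]
  simp [pd, (h1.1 y hy).fderiv, (h2.1 y hy).fderiv, P218EF.cop_apply]

end lim

variable {ι τ : Type} [Fintype ι] [Fintype τ] {G G' : Type}
  [NormedAddCommGroup G] [NormedSpace ℂ G] [NormedAddCommGroup G'] [NormedSpace ℂ G']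

/-- composition with a function which is holomorphic near a point -/
lemma hb_comp {D : Type} {c : Cst} {U : Set D} {g : (ι → ℝ) → Pt ι τ → D → G}
    {gb : Pt ι τ → D → G} (h : HB c U g gb) {Θ : G → G'} {g0 : G} (hΘ : ContDiffAt ℂ 1 Θ g0)
    {P : G → Prop} (hP : ∀ᶠ x in 𝓝 g0, P x) : ∃ ε : ℝ, 0 < ε ∧ ∀ᶠ c' in c.sm,
      HB c' {y | y ∈ U ∧ ‖gb 0 y - g0‖ < ε} (fun W z y => Θ (g W z y)) (fun z y => Θ (gb z y)) ∧
      (∀ W z, c'.Ok W z → ∀ y ∈ U, ‖gb 0 y - g0‖ < ε → P (g W z y)) ∧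
      ∀ z ∈ ball (0 : Pt ι τ) c'.r, ∀ y ∈ U, ‖gb 0 y - g0‖ < ε → P (gb z y) := by
  have h1 : ∀ᶠ x in 𝓝 g0, ‖Θ x‖ ≤ ‖Θ g0‖ + 1 :=
    hΘ.continuousAt.norm.eventually (eventually_le_nhds (lt_add_one _))
  obtain ⟨ρ, hρ, hb⟩ := Metric.mem_nhds_iff.1 (((hΘ.eventually (by simp)).and h1).and hP)
  refine ⟨ρ / 4, by positivity, ?_⟩
  filter_upwards [h.near (show 0 < ρ / 4 by positivity), c.ev_le] with c' k1 k2
  have a : ∀ {x x0 : G}, ‖x - x0‖ < ρ / 4 → ‖x0 - g0‖ < ρ / 4 → x ∈ ball g0 (ρ / 2) :=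
    fun {x x0} a b => mem_ball_iff_norm.2 (by linarith [norm_sub_le_norm_sub_add_norm_sub x x0 g0])
  have s : ball g0 (ρ / 2) ⊆ ball g0 ρ := ball_subset_ball (by linarith)
  have e : 2 * (ρ / 2) = ρ := by ring
  exact ⟨(h.mono k2 fun _ hy => hy.1).comp (half_pos hρ)
    (e.symm ▸ fun x hx => ((hb hx).1.1.differentiableAt one_ne_zero).differentiableWithinAt)
    (e.symm ▸ fun x hx => (hb hx).1.2) (fun W z hz y hy => a (k1.1 W z hz y hy.1) hy.2)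
    fun z hz y hy => a (k1.2 z hz y hy.1) hy.2,
    fun W z hz y hy h' => (hb (s (a (k1.1 W z hz y hy) h'))).2,
    fun z hz y hy h' => (hb (s (a (k1.2 z hz y hy) h'))).2⟩

/-- families of functions of class `C²` whose two-jets satisfy `HB` -/
structure HJ (c : Cst) (U : Set (ℝ × ℝ)) (g : (ι → ℝ) → Pt ι τ → ℝ × ℝ → G)
    (gb : Pt ι τ → ℝ × ℝ → G) : Prop where
  cd : ∀ W z, c.Ok W z → ∀ y ∈ U, ContDiffAt ℝ 2 (g W z) y
  cdb : ∀ z ∈ ball (0 : Pt ι τ) c.r, ∀ y ∈ U, ContDiffAt ℝ 2 (gb z) y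
  hb : HB c U (fun W z y => cj (1, 0) (0, 1) (g W z) y) fun z y => cj (1, 0) (0, 1) (gb z) y

/-- the same on some smaller domain and near `y` -/
def Loc (c : Cst) (y : ℝ × ℝ) (g : (ι → ℝ) → Pt ι τ → ℝ × ℝ → G) (gb : Pt ι τ → ℝ × ℝ → G) :
    Prop := ∃ U ∈ 𝓝 y, ∀ᶠ c' in c.sm, HJ c' U g gb

variable {c c' : Cst} {U U' : Set (ℝ × ℝ)} {y : ℝ × ℝ} {g g₁ : (ι → ℝ) → Pt ι τ → ℝ × ℝ → G}
  {gb : Pt ι τ → ℝ × ℝ → G} {g' : (ι → ℝ) → Pt ι τ → ℝ × ℝ → G'} {gb' : Pt ι τ → ℝ × ℝ → G'}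

lemma HJ.mono (h : HJ c U g gb) (hc : c'.Le c) (hU : U' ⊆ U) : HJ c' U' g gb :=
  ⟨fun W z hz y hy => h.cd W z (hc.ok hz) y (hU hy), fun z hz y hy => h.cdb z (hc.ball hz) y (hU hy),
    h.hb.mono hc hU⟩

lemma HJ.loc (h : HJ c' U g gb) (hc : c'.Le c) (hU : U ∈ 𝓝 y) : Loc c y g gb :=
  ⟨U, hU, hc.ev.mono fun _ h' => h.mono h' Subset.rfl⟩

lemma loc_of_hf (h : HF c' (1, 0) (0, 1) U g gb) (hc : c'.Le c) (hU : U ∈ 𝓝 y) : Loc c y g gb :=
  HJ.loc ⟨h.cd, h.cdb, h.hb⟩ hc hU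

lemma HJ.val (h : HJ c U g gb) : HB c U g gb :=
  h.hb.clm ((ContinuousLinearMap.fst ℂ G _).comp (ContinuousLinearMap.fst ℂ _ _))

/-- **The derivative in the parameter** is of class `C²`. -/
theorem HJ.deriv (h : HJ c U g gb) (hU : U ∈ 𝓝 y) (b : Pt ι τ) :
    ContDiffAt ℝ 2 (fun y => fderiv ℂ (fun z => gb z y) 0 b) y ∧
      cj (1, 0) (0, 1) (fun y => fderiv ℂ (fun z => gb z y) 0 b) y
        = fderiv ℂ (fun z => cj (1, 0) (0, 1) (gb z) y) 0 b := by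
  obtain ⟨V, hVU, hV, hy⟩ := _root_.mem_nhds_iff.1 hU
  obtain ⟨B, b0, hB⟩ := h.hb.bdb'
  have hr := c.r_pos
  obtain ⟨t, ht⟩ : ∃ t : ℕ → ℝ, ∀ n, t n = c.r / (‖b‖ + 1) * (1 / (n + 1)) := ⟨_, fun _ => rfl⟩
  have t0 : ∀ n, 0 < t n := fun n => by rw [ht]; positivity
  have t1 : ∀ n, ‖(t n : ℂ) • b‖ < c.r := fun n => by
    rw [norm_smul, Complex.norm_real, Real.norm_of_nonneg (t0 n).le]
    have a1 : t n ≤ c.r / (‖b‖ + 1) := by
      rw [ht]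
      exact mul_le_of_le_one_right (by positivity)
        ((div_le_one (by positivity)).2 (by linarith [n.cast_nonneg (α := ℝ)]))
    rw [le_div_iff₀ (by positivity)] at a1
    nlinarith [t0 n]
  have t2 : Tendsto (fun n => 3 * B * (‖b‖ / c.r) ^ 2 * t n) atTop (𝓝 0) := by
    simp only [ht]
    simpa using ((tendsto_one_div_add_atTop_nhds_zero_nat (𝕜 := ℝ)).const_mul
      (c.r / (‖b‖ + 1))).const_mul (3 * B * (‖b‖ / c.r) ^ 2)
  have z0 : (0 : Pt ι τ) ∈ ball 0 c.r := mem_ball_self hr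
  have k0 : ∀ n, ∀ x ∈ V, ContDiffAt ℝ 2 (fun x => gb ((t n : ℂ) • b) x + (-1 : ℂ) • gb 0 x) x :=
    fun n x hx => (h.cdb _ (mem_ball_zero_iff.2 (t1 n)) x (hVU hx)).add
      ((h.cdb 0 z0 x (hVU hx)).const_smul _)
  have k := lim2 hV (f := fun n x => (t n : ℂ)⁻¹ • (gb ((t n : ℂ) • b) x + (-1 : ℂ) • gb 0 x))
    (L := fun x => fderiv ℂ (fun z => cj (1, 0) (0, 1) (gb z) x) 0 b)
    (fun n x hx => (k0 n x hx).const_smul _) (fun ε hε => ?_) hy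
  · have e : (fun y => fderiv ℂ (fun z => gb z y) 0 b) =ᶠ[𝓝 y]
        fun x => (fderiv ℂ (fun z => cj (1, 0) (0, 1) (gb z) x) 0 b).1.1 := by
      filter_upwards [hU] with x hx
      exact congrArg (fun L => L b) (h.hb.hasFDerivAt hx).fst.fst.fderiv
    exact ⟨k.1.congr_of_eventuallyEq e, (cj_congr e).trans k.2⟩
  filter_upwards [t2.eventually_le_const hε] with n hn x hx
  have a := taylor_two (x := 0) (h.hb.holob x (hVU hx)) (fun u hu => hB u hu x (hVU hx)) (t1 n)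
  have tn : (t n : ℂ) ≠ 0 := Complex.ofReal_ne_zero.2 (t0 n).ne'
  rw [cj_csmul _ (k0 n x hx), cj_add (h.cdb _ (mem_ball_zero_iff.2 (t1 n)) x (hVU hx))
    ((h.cdb 0 z0 x (hVU hx)).const_smul _), cj_csmul _ (h.cdb 0 z0 x (hVU hx)), neg_one_smul,
    ← sub_eq_add_neg, ← inv_smul_smul₀ tn (fderiv ℂ _ 0 b), ← smul_sub, ← map_smul, norm_smul,
    norm_inv, Complex.norm_real, Real.norm_of_nonneg (t0 n).le, inv_mul_le_iff₀ (t0 n)]
  rw [zero_add, norm_smul, Complex.norm_real, Real.norm_of_nonneg (t0 n).le] at a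
  refine a.trans ?_
  calc _ = t n * (3 * B * (‖b‖ / c.r) ^ 2 * t n) := by ring
    _ ≤ _ := mul_le_mul_of_nonneg_left hn (t0 n).le

/-- `jzip` as a linear map -/
noncomputable def jzipL (G G' : Type) [NormedAddCommGroup G] [NormedSpace ℂ G]
    [NormedAddCommGroup G'] [NormedSpace ℂ G'] : J2 G × J2 G' →L[ℂ] J2 (G × G') where
  toFun p := jzip p.1 p.2
  map_add' _ _ := rfl
  map_smul' _ _ := rfl
  cont := by unfold jzip; fun_prop

/-- `jconst` as a linear map -/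
noncomputable def jconstL (G : Type) [NormedAddCommGroup G] [NormedSpace ℂ G] : G →L[ℂ] J2 G where
  toFun := jconst
  map_add' _ _ := by simp [jconst]
  map_smul' _ _ := by simp [jconst]
  cont := by unfold jconst; fun_prop

/-- `nj` as a linear map -/
noncomputable def njL (G : Type) [NormedAddCommGroup G] [NormedSpace ℂ G] (l : ℝ) :
    J2 G →L[ℂ] J2 G where
  toFun := nj l
  map_add' _ _ := by simp [nj]
  map_smul' a _ := by simp [nj, smul_comm a]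
  cont := by unfold nj; fun_prop

lemma norm_njL_le {l : ℝ} (h : |l| ≤ 1) : ‖njL G l‖ ≤ 1 := by
  refine ContinuousLinearMap.opNorm_le_bound _ zero_le_one fun j => ?_
  have k : ∀ {a : ℂ} {v : G}, ‖a‖ ≤ 1 → ‖v‖ ≤ ‖j‖ → ‖a • v‖ ≤ ‖j‖ := fun ha hv =>
    (norm_smul_le _ _).trans ((mul_le_of_le_one_left (norm_nonneg _) ha).trans hv)
  have h1 : ‖(l : ℂ)‖ ≤ 1 := by simpa using h
  have h2 : ‖(l : ℂ) ^ 2‖ ≤ 1 := by rw [norm_pow]; exact pow_le_one₀ (norm_nonneg _) h1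
  have h3 := le_refl ‖j‖
  conv_lhs at h3 => rw [show j = ((j.1.1, j.1.2.1, j.1.2.2), (j.2.1, j.2.2.1, j.2.2.2)) from rfl]
  simp only [norm_prod_le_iff] at h3
  rw [one_mul]
  change ‖nj l j‖ ≤ _
  simp only [nj, norm_prod_le_iff]
  exact ⟨⟨h3.1.1, k h1 h3.1.2.1, h3.1.2.2⟩, k h2 h3.2.1, k h1 h3.2.2.1, h3.2.2.2⟩

lemma nj_inv {l : ℝ} (h : l ≠ 0) (j : J2 G) : njL G l⁻¹ (nj l j) = j := by
  have h1 : (l : ℂ) ≠ 0 := Complex.ofReal_ne_zero.2 h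
  change nj l⁻¹ (nj l j) = j
  simp only [nj, Complex.ofReal_inv, inv_pow, inv_smul_smul₀ h1, inv_smul_smul₀ (pow_ne_zero 2 h1)]

lemma loc_of_hn {s : ℝ} (h : HN c s g gb) (hs : 1 ≤ s) (hy : s < y.1) : Loc c y g gb := by
  refine HJ.loc (U := {p | s < p.1}) ⟨h.cd, h.cdb, ?_⟩ Cst.Le.rfl
    ((isOpen_lt continuous_const continuous_fst).mem_nhds hy)
  have k : ∀ p ∈ {p : ℝ × ℝ | s < p.1}, 1 ≤ p.1 := fun p hp => hs.trans (le_of_lt hp)
  exact (h.hb.map (A := fun p => njL G p.1⁻¹) (M := 1) fun p hp => norm_njL_le (by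
    rw [abs_of_nonneg (inv_nonneg.2 (by linarith [k p hp]))]
    exact inv_le_one_of_one_le₀ (k p hp))).congr
    (fun _ _ _ p hp => (nj_inv (by linarith [k p hp]) _).symm)
    fun _ _ p hp => (nj_inv (by linarith [k p hp]) _).symm

namespace Loc

lemma exists_hj (h : Loc c y g gb) : ∃ U ∈ 𝓝 y, ∃ c' : Cst, c'.Le c ∧ HJ c' U g gb :=
  h.imp fun _ h => ⟨h.1, Cst.exists_of_ev h.2⟩

lemma prod (h : Loc c y g gb) (h' : Loc c y g' gb') :
    Loc c y (fun W z y => (g W z y, g' W z y)) fun z y => (gb z y, gb' z y) := by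
  obtain ⟨U, hU, h⟩ := h
  obtain ⟨U', hU', h'⟩ := h'
  refine ⟨U ∩ U', inter_mem hU hU', (h.and h').mono fun c' k => ?_⟩
  have a := k.1.mono Cst.Le.rfl (inter_subset_left (t := U'))
  have b := k.2.mono Cst.Le.rfl (inter_subset_right (s := U))
  exact ⟨fun W z hz y hy => (a.cd W z hz y hy).prodMk (b.cd W z hz y hy),
    fun z hz y hy => (a.cdb z hz y hy).prodMk (b.cdb z hz y hy),
    ((a.hb.prod b.hb).clm (jzipL G G')).congr
      (fun W z hz y hy => cj_prod (a.cd W z hz y hy) (b.cd W z hz y hy))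
      fun z hz y hy => cj_prod (a.cdb z hz y hy) (b.cdb z hz y hy)⟩

/-- functions which do not depend on the parameters -/
lemma fn (c : Cst) {k : ℝ × ℝ → G} (hk : ContDiffAt ℝ 2 k y) :
    Loc c y (fun (_ : ι → ℝ) (_ : Pt ι τ) => k) fun _ => k := by
  have h1 : ContinuousAt (cj (1, 0) (0, 1) k) y :=
    (contDiffAt_cj (n := 0) (by rwa [zero_add])).continuousAt
  have h2 := (hk.eventually (by simp)).and
    (h1.norm.eventually (eventually_le_nhds (lt_add_one _)))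
  exact HJ.loc ⟨fun _ _ _ _ hy => hy.1, fun _ _ _ hy => hy.1, HB.const fun _ hy => hy.2⟩
    Cst.Le.rfl h2

/-- families of constants -/
lemma par {D : Type} {V : Set D} {k : (ι → ℝ) → Pt ι τ → D → G} {kb : Pt ι τ → D → G}
    (h : HB c V k kb) {d : D} (hd : d ∈ V) (y : ℝ × ℝ) :
    Loc c y (fun W z _ => k W z d) fun z _ => kb z d :=
  HJ.loc (U := univ) ⟨fun _ _ _ _ _ => contDiffAt_const, fun _ _ _ _ => contDiffAt_const,
    ((h.pre (T := fun _ => d) fun _ _ => hd).clm (jconstL G)).congr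
      (fun _ _ _ _ _ => cj_const _) fun _ _ _ _ => cj_const _⟩ Cst.Le.rfl univ_mem

lemma comp (h : Loc c y g gb) {Θ : G → G'} (hΘ : ContDiffAt ℂ 3 Θ (gb 0 y)) :
    Loc c y (fun W z y => Θ (g W z y)) fun z y => Θ (gb z y) := by
  obtain ⟨U, hU, c1, hc, h⟩ := h.exists_hj
  have h0 := h.cdb 0 (mem_ball_self c1.r_pos) y (mem_of_mem_nhds hU)
  have h1 : ContinuousAt (cj (1, 0) (0, 1) (gb 0)) y :=
    (contDiffAt_cj (n := 0) (by rwa [zero_add])).continuousAt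
  have h2 : ∀ᶠ j : J2 G in 𝓝 (cj (1, 0) (0, 1) (gb 0) y), ContDiffAt ℂ 2 Θ j.1.1 :=
    (continuous_fst.fst.tendsto _).eventually ((hΘ.of_le (by norm_num)).eventually (by simp))
  obtain ⟨ε, hε, k⟩ := hb_comp h.hb (Θ := jcomp Θ) (g0 := cj (1, 0) (0, 1) (gb 0) y)
    (contDiffAt_jcomp (by exact hΘ)) h2
  refine ⟨_, inter_mem hU ((tendsto_iff_norm_sub_tendsto_zero.1 h1).eventually_lt_const hε), ?_⟩
  rw [hc.sm] at k
  filter_upwards [k, hc.ev] with c' k hc'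
  have a := h.mono hc' Subset.rfl
  exact ⟨fun W z hz x hx => ((k.2.1 W z hz x hx.1 hx.2).restrict_scalars ℝ).comp x
      (a.cd W z hz x hx.1),
    fun z hz x hx => ((k.2.2 z hz x hx.1 hx.2).restrict_scalars ℝ).comp x (a.cdb z hz x hx.1),
    k.1.congr (fun W z hz x hx => cj_comp (k.2.1 W z hz x hx.1 hx.2) (a.cd W z hz x hx.1))
      fun z hz x hx => cj_comp (k.2.2 z hz x hx.1 hx.2) (a.cdb z hz x hx.1)⟩

lemma congr (h : Loc c y g gb) {V : Set (ℝ × ℝ)} (hV : V ∈ 𝓝 y)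
    (e : ∀ᶠ c' in c.sm, ∀ W z, c'.Ok W z → ∀ x ∈ V, g₁ W z x = g W z x) : Loc c y g₁ gb := by
  obtain ⟨U, hU, h⟩ := h
  refine ⟨U ∩ interior V, inter_mem hU (interior_mem_nhds.2 hV), (h.and e).mono fun c' k => ?_⟩
  have a := k.1.mono Cst.Le.rfl (inter_subset_left (t := interior V))
  have b : ∀ W z, c'.Ok W z → ∀ x ∈ U ∩ interior V, g₁ W z =ᶠ[𝓝 x] g W z := fun W z hz x hx =>
    Eventually.mono (mem_interior_iff_mem_nhds.1 hx.2) (k.2 W z hz)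
  exact ⟨fun W z hz x hx => (a.cd W z hz x hx).congr_of_eventuallyEq (b W z hz x hx), a.cdb,
    a.hb.congr (fun W z hz x hx => cj_congr (b W z hz x hx)) fun _ _ _ _ => rfl⟩

end Loc

end Vale.Agent.P218VL
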