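import Vale.Agent.P218VL.Eqn
import Vale.Agent.P218VL.Jet
import Vale.Agent.P218GS.VF

/-! # The velocities solve the linearised equation -/

open Set Filter Topology Metric Asymptotics
open scoped RealInnerProductSpace ContDiff Matrix

set_option linter.unusedSectionVars false

namespace Vale.Agent.P218VL

open Vale.Agent.P218VA hiding Geo
open Vale.Agent.P218CO Vale.Agent.P218HB Vale.Agent.P218ST Vale.Agent.P218XI
open Vale.Agent.P218GA (E3 cx Model pol mat cx_isometry)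
open Vale.Agent.P218GE (RealFam Geo seqPar LinP)
open Vale.Agent.P218SQ (Pt Adm ofReal)
open Vale.Agent.P218ND (reV LM)
open Vale.Agent.P272.K.LIN

section frame
variable {ι τ : Type} [Fintype ι] [Fintype τ] {c : Cst} {y : ℝ × ℝ}
  {t : (ι → ℝ) → Pt ι τ → ℝ × ℝ → ℂ} {tb : Pt ι τ → ℝ × ℝ → ℂ}

lemma Loc.frame (F : Frame) (h : Loc c y t tb) (hy : 0 < y.1) (h0 : 1 + tb 0 y ^ 2 ≠ 0) :
    Loc c y (fun W z q => F.X q.1 q.2 (t W z q)) fun z q => F.X q.1 q.2 (tb z q) := by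
  have h1 : ContDiffAt ℝ 2 (fun q : ℝ × ℝ => (rt q.1, F.γ q.2, F.n q.2)) y :=
    (((contDiffAt_rt hy).of_le two_le_inf).comp y contDiffAt_fst).prodMk
      ((((F.γ_sm.of_le two_le_inf).comp contDiff_snd).contDiffAt).prodMk
        (((F.n_sm.of_le two_le_inf).comp contDiff_snd).contDiffAt))
  have h2 := ((Loc.fn c h1).prod h).comp (Θ := fun p : (ℂ × C3 × C3) × ℂ =>
    (2 * p.1.1) • (co p.2 • p.1.2.1 + si p.2 • p.1.2.2)) (by
      unfold co si
      fun_prop (disch := exact h0))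
  simpa only [Frame.X_eq, Frame.u] using h2

lemma Loc.kap (h : Loc c y t tb) (hy : 0 < y.1) :
    Loc c y (fun W z q => kap q.1 * t W z q) fun z q => kap q.1 * tb z q :=
  ((Loc.fn c (((contDiffAt_kap hy).of_le two_le_inf).comp y contDiffAt_fst)).prod h).comp
    (Θ := fun p : ℂ × ℂ => p.1 * p.2) (by fun_prop)

lemma Loc.rot {X : (ι → ℝ) → Pt ι τ → ℝ × ℝ → C3} {Xb : Pt ι τ → ℝ × ℝ → C3} (h : Loc c y X Xb)
    {R : (ι → ℝ) → Pt ι τ → Matrix (Fin 3) (Fin 3) ℂ} {Rb : Pt ι τ → Matrix (Fin 3) (Fin 3) ℂ}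
    (hR : HB c univ (fun W z (a : Fin 3 × Fin 3) => R W z a.1 a.2) fun z a => Rb z a.1 a.2) :
    Loc c y (fun W z q => R W z *ᵥ X W z q) fun z q => Rb z *ᵥ Xb z q := by
  have h1 := HB.pi fun a : Fin 3 × Fin 3 => hR.pre (V := univ) (T := fun _ : Unit => a)
    fun _ _ => mem_univ _
  refine ((Loc.par h1 (mem_univ ()) y).prod h).comp
    (Θ := fun p : (Fin 3 × Fin 3 → ℂ) × C3 => Matrix.of (fun a b => p.1 (a, b)) *ᵥ p.2)
    (contDiffAt_pi.2 fun a => ?_)
  simp only [Matrix.mulVec, dot3, Matrix.of_apply]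
  fun_prop

end frame

variable {S : Set E3} {w : E3 → ℝ} {δ C : ℝ} {ι κ M : Type} [Fintype ι] [Fintype κ]
  [TopologicalSpace M] [ChartedSpace E2 M] [T2Space M] [RSm E2 M] [CompactSpace M]
  [MeasurableSpace M] [BorelSpace M] {m : Model S w δ C ι κ M} {τ : Type} [Fintype τ]
  (H : Hub m τ)

lemma s_ge : 1 ≤ H.s := m.one_le.trans (w0_lt H).le

/-- the family on a cylindrical end -/
lemma loc_cyl (i : ι) {p : ℝ × ℝ} (hp : H.s < p.1) : ∃ gb : Pt ι τ → ℝ × ℝ → C3,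
    Loc H.c p (fun W z q => H.X W z (Yp m.φ (.inl i) q)) gb ∧
      ∀ᶠ q in 𝓝 p, gb 0 q = cx (m.F (Yp m.φ (.inl i) q)) := by
  obtain ⟨c', ub, hc, hf, h0⟩ := H.u_hf i (p.1 + 1)
  have hU : strip H.s (p.1 + 1) ∈ 𝓝 p := ev_fst hp (lt_add_one _)
  have p0 : 0 < p.1 := by linarith [s_ge H]
  have h1 := ((loc_of_hf hf hc hU).kap p0).frame cylF p0 (by
    rw [(h0 p (mem_of_mem_nhds hU)).1, kap, ← Complex.ofReal_mul]; exact one_add_sq_ne _)
  have h2 := h1.rot (R := fun W z => H.R W z i) (Rb := fun z => H.Rb z i)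
    (H.R_hb.pre (T := fun a => (i, a)) fun _ _ => mem_univ _)
  refine ⟨_, h2.congr hU ?_, ?_⟩
  · filter_upwards [H.c.ev_le, H.c.ev_w1 (p.1 + 1)] with c1 a b W z hz q hq
    exact H.cyl W z (a.ok hz) i q hq.1 (hq.2.trans_le (b.trans (hz.1 i).1))
  · filter_upwards [hU] with q hq
    rw [Yp, m.cyl i q ((w0_lt H).trans hq.1), cx_isometry, cx_xiCyl_Z, H.R_zero, (h0 q hq).1]
    rfl

/-- the family on a conical end -/
lemma loc_cone (j : κ) {p : ℝ × ℝ} (hp : H.s < p.1) :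
    Loc H.c p (fun W z q => H.X W z (Yp m.φ (.inr j) q))
      (fun z q => (coneF (m.L j)).X q.1 q.2 (H.tb z j q)) ∧
      ∀ᶠ q in 𝓝 p, (coneF (m.L j)).X q.1 q.2 (H.tb 0 j q) = cx (m.F (Yp m.φ (.inr j) q)) := by
  have hU := ev_fst hp (lt_add_one _)
  have h1 := (loc_of_hn (H.t_hn j) (s_ge H) hp).frame (coneF (m.L j)) (by linarith [s_ge H])
    (by rw [H.t_zero j p hp]; exact one_add_sq_ne _)
  refine ⟨h1.congr hU ?_, ?_⟩
  · filter_upwards [H.c.ev_le] with c1 a W z hz q hq using H.cone W z (a.ok hz) j q hq.1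
  · filter_upwards [hU] with q hq
    rw [Yp, m.cone j q ((w0_lt H).trans hq.1), cx_xiCone, H.t_zero j q hq.1]

/-- **Near every regular point the surfaces form a holomorphic family with limit `F`.** -/
theorem exists_loc {x : M} (hx : x ∈ m.reg) : ∃ (e : OpenPartialHomeomorph M E2)
    (T : ℝ × ℝ → E2) (y : ℝ × ℝ) (gb : Pt ι τ → ℝ × ℝ → C3), Par e T y ∧ e.symm (T y) = x ∧
      Loc H.c y (fun W z q => H.X W z (e.symm (T q))) gb ∧
        ∀ᶠ q in 𝓝 y, gb 0 q = cx (m.F (e.symm (T q))) := by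
  rcases core_or_end hx (r := H.s + 3) (by linarith [w0_lt H]) with h | ⟨j, p, hp, rfl⟩
  · obtain ⟨c', hc, e, he, T, y, h1, h2, h3, h4, U, hU, gb, h5, h6⟩ := H.core x h
    exact ⟨e, T, y, gb, ⟨he, h1, h2, h3⟩, h4, loc_of_hf h5 hc hU, mem_of_superset hU h6⟩
  have hp' : H.s < p.1 := by linarith
  cases j with
  | inl i =>
    obtain ⟨gb, h1, h2⟩ := loc_cyl H i hp'
    exact ⟨_, pol, p, gb, par_pol _ ((w0_lt H).trans hp'), rfl, h1, h2⟩
  | inr j =>
    exact ⟨_, pol, p, _, par_pol _ ((w0_lt H).trans hp'), rfl, (loc_cone H j hp').1,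
      (loc_cone H j hp').2⟩

/-- **The Euler-Lagrange equation at all regular points.** -/
theorem ev_elm {x : M} (hx : x ∈ m.reg) : ∀ᶠ c' in H.c.sm, ∀ W z, c'.Ok W z →
    ELM (fun y => cx (m.F y)) (H.X W z) x (cx (m.nu x))
      = ∑ k, H.lam W z k * (H.e k (m.F x) : ℝ) := by
  by_cases h : x ∈ coreK m.φ H.sd
  · exact H.c.ev_le.mono fun c' a W z hz => H.deep W z (a.ok hz) x h
  simp only [e_zero H hx h, Complex.ofReal_zero, mul_zero, Finset.sum_const_zero]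
  rcases core_or_end hx (r := H.s + 3) (by linarith [w0_lt H]) with h' | ⟨j, p, hp, rfl⟩
  · exact H.c.ev_le.mono fun c' a W z hz => H.out W z (a.ok hz) x h' h _
  have hp' : H.s < p.1 := by linarith
  cases j with
  | inl i =>
    filter_upwards [H.c.ev_le, H.c.ev_w1 (p.1 + 1)] with c' a b W z hz
    exact elm_cyl H (a.ok hz) i hp' (by linarith [(hz.1 i).1]) _
  | inr j =>
    obtain ⟨U, hU, c1, hc, h1⟩ := (loc_of_hn (H.t_hn j) (s_ge H) hp').exists_hj
    have h2 := h1.val.near one_pos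
    rw [hc.sm] at h2
    filter_upwards [H.c.ev_le, h2] with c' a b W z hz
    refine elm_cone H (a.ok hz) j hp' (fun h0 => ?_) _
    have h3 := (Complex.abs_im_le_norm _).trans_lt (b.1 W z hz p (mem_of_mem_nhds hU))
    rw [H.t_zero j p hp', Complex.sub_im, Complex.ofReal_im, sub_zero, ← sq_lt_one_iff_abs_lt_one]
      at h3
    have h4 := congrArg Complex.re h0
    simp only [sq, Complex.add_re, Complex.one_re, Complex.mul_re, Complex.zero_re] at h4
    nlinarith [mul_self_nonneg (H.t W z j p).re]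

variable {R : RealFam m (seqPar ((ι → ℝ) × (τ → ℝ)))} (G : Geo R)

/-- **The velocity** is the normal part of the derivative of the limit family. -/
theorem v_eq (hX : R.X = H.Xr) {D : Type} {c : Cst} {U : Set D} {Y : D → M}
    {gb : Pt ι τ → D → C3} (h : HB c U (fun W z q => H.X W z (Y q)) gb) {q : D} (hq : q ∈ U)
    (hr : Y q ∈ m.reg) (b : (ι → ℝ) × (τ → ℝ)) :
    G.v b (m.F (Y q)) = -⟪m.nu (Y q), reV (fderiv ℂ (fun z => gb z q) 0 (ofReal b))⟫ := by
  refine G.v_pt hr (LX := reV.comp (((fderiv ℂ (fun z => gb z q) 0).restrictScalars ℝ).comp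
    (ofL ι τ))) ?_ b
  have h1 : (fun a : ℕ × (ι → ℝ) × (τ → ℝ) =>
      H.X (fun _ => P218LB.lvl a.1 a.2) (ofReal a.2) (Y q)
        - H.X (fun _ => P218LB.lvl a.1 (0 : (ι → ℝ) × (τ → ℝ))) (ofReal 0) (Y q)
        - fderiv ℂ (fun z => gb z q) 0 (ofReal a.2)) =o[atTop ×ˢ 𝓝 0] fun a => ‖a.2‖ :=
    IsLittleO.of_bound fun ε hε => (h.lin hε).mono fun a ha => by
      rw [norm_norm]; exact ha q hq
  refine ((reV.isBigO_comp _ _).trans_isLittleO h1).congr_left fun a => ?_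
  rw [map_sub, map_sub, hX]
  rfl

/-- **The velocities solve the linearised equation.** -/
theorem vel_eq (hX : R.X = H.Xr) (b : (ι → ℝ) × (τ → ℝ)) {x : M} (hx : x ∈ m.reg) :
    CkAt 2 (fun z => G.v b (m.F z)) x ∧ LM m (fun z => G.v b (m.F z)) x
      = H.eL (fun k => (fderiv ℂ (fun z => H.lamb z k) 0 (ofReal b)).re) (m.F x) := by
  obtain ⟨e, T, y, gb, hP, rfl, hL, h0⟩ := exists_loc H hx
  obtain ⟨U, hU, c1, hc, h1⟩ := hL.exists_hj
  have hy := mem_of_mem_nhds hU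
  obtain ⟨d1, d2⟩ := h1.deriv hU (ofReal b)
  have hj0 : cj (1, 0) (0, 1) (gb 0) y = cj (1, 0) (0, 1) (fun q => cx (m.F (e.symm (T q)))) y :=
    cj_congr h0
  set L0 := LagF (1, 0) (0, 1) (fun q => cx (m.F (e.symm (T q)))) y with hL0
  set N := cx (m.nu (e.symm (T y))) with hN
  -- the equation passes to the limit
  have h2 := (h1.hb.mono Cst.Le.rfl (singleton_subset_iff.2 hy)).prod
    ((HB.pi fun k => H.lam_hb.pre (V := {y}) (T := fun _ => k) fun _ _ => mem_univ _).mono hc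
      Subset.rfl)
  have hΘ : ContDiffAt ℂ 1 (fun p : J2 C3 × (τ ⊕ ι → ℂ) =>
      ELj p.1 N - (∑ k, p.2 k * (H.e k (m.F (e.symm (T y))) : ℝ)) * L0)
      (cj (1, 0) (0, 1) (gb 0) y, fun k => H.lamb 0 k) := by
    refine (contDiffAt_EL (by fun_prop) (by fun_prop) (by fun_prop) (by fun_prop) (by fun_prop)
      (by fun_prop) contDiffAt_const ?_).sub (by fun_prop)
    rw [hj0]
    exact hP.slit m hx
  obtain ⟨ε, hε, h3⟩ := hb_comp h2 hΘ (P := fun _ => True) (Eventually.of_forall fun _ => trivial)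
  rw [hc.sm] at h3
  obtain ⟨c2, ⟨h4, -⟩, h5, h6⟩ := (h3.and ((ev_elm H hx).and hc.ev)).exists
  have hy' : y ∈ {q | q ∈ ({y} : Set (ℝ × ℝ)) ∧ ‖(cj (1, 0) (0, 1) (gb 0) q, fun k => H.lamb 0 k)
      - (cj (1, 0) (0, 1) (gb 0) y, fun k => H.lamb 0 k)‖ < ε} := ⟨rfl, by simpa using hε⟩
  have h7 := (h4.deriv_zero hy' (fun W z hz => by
    rw [← h5 W z hz, hP.elm m hx (h1.cd W z (h6.ok hz) y hy) (Eventually.of_forall fun _ => rfl),
      sub_self]) b).2
  -- derivatives along the complex line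
  have t : HasDerivAt (fun s : ℂ => s • ofReal b) (ofReal b) 0 := by
    simpa using (hasDerivAt_id (0 : ℂ)).smul_const (ofReal b)
  have k : ∀ {G : Type} [NormedAddCommGroup G] [NormedSpace ℂ G] {f : Pt ι τ → G}
      {L : Pt ι τ →L[ℂ] G}, HasFDerivAt f L 0 →
        HasDerivAt (fun s : ℂ => f (s • ofReal b)) (L (ofReal b)) 0 := fun hf =>
    HasFDerivAt.comp_hasDerivAt (0 : ℂ) (by rwa [zero_smul]) t
  have k1 := k (h4.hasFDerivAt hy')
  rw [h7] at k1
  have k2 := (HasDerivAt.fun_sum (u := Finset.univ) fun a _ =>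
    (k (H.lam_hb.hasFDerivAt (mem_univ a))).mul_const
      ((H.e a (m.F (e.symm (T y))) : ℝ) : ℂ)).mul_const L0
  have k3 := k1.fun_add k2
  simp only [sub_add_cancel, zero_add] at k3
  have k4 := hP.lin m hx d1 (v := fun z => G.v b (m.F z)) (by
    filter_upwards [hU, hP.cont.eventually (m.isOpen_reg.mem_nhds hx)] with q a a'
    exact v_eq H G hX h1.val a a' b) (d2 ▸ k (h1.hb.hasFDerivAt hy)) (by rw [zero_smul, hj0]) k3
  refine ⟨k4.1, k4.2.trans ?_⟩
  simp [Hub.eL_apply]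

theorem vel (hX : R.X = H.Xr) (b : (ι → ℝ) × (τ → ℝ)) : ∃ l, ∀ x ∈ m.reg,
    CkAt 2 (fun z => G.v b (m.F z)) x ∧ LM m (fun z => G.v b (m.F z)) x = H.eL l (m.F x) :=
  ⟨_, fun _ hx => vel_eq H G hX b hx⟩

end Vale.Agent.P218VL
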